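import Vale.Agent.P325.H111.K2.Stmts

/-!
# Pairs for windows (package A5)
-/

namespace Vale.Agent.P325.H991.K2

open Finset Vale.Agent.Lib.PCP Vale.Agent.P342 Vale.Agent.P325.K2

variable {n N r L : ℕ}

/-- The address determines the label tuple. -/
theorem adr_injective [NeZero n] (π : Win n N → Fin r → Fin r) (c : Win n N) :
    Function.Injective (adr π c : Lab n N r → Fin n → Key n N r) := by
  intro ν ν' h
  funext b
  by_cases hD : Dj b c
  · have h1 := congrFun (congrArg Prod.snd (congrFun h 0)) b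
    simpa [adr, hD] using h1
  · unfold Dj at hD
    push Not at hD
    obtain ⟨k, hk⟩ := hD
    have h1 := congrFun (congrArg Prod.snd (congrFun h k)) b
    simpa [adr, hk] using h1

/-- Package A5 from package A4. -/
theorem pairAvg (h : PairThm) : PairAvg := by
  classical
  intro n N r hn ε hε
  have : NeZero n := ⟨by omega⟩
  set M : ℝ := (Fintype.card (Lab n N r) : ℝ) with hM
  have hM0 : 0 ≤ M := Nat.cast_nonneg _
  obtain ⟨L0, hL0⟩ := h n hn (ε / (M ^ 2 + 1)) (by positivity)
  refine ⟨L0, fun L hL he π c => ?_⟩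
  have key : ∀ ν ν' : Lab n N r, ν ≠ ν' →
      (Ex fun a : Fin n → Fin L => Pr fun y : Bt n L (Key n N r) → Bool =>
        near a y (adr π c ν) ∧ near a y (adr π c ν')) ≤ ε / (M ^ 2 + 1) / L := by
    intro ν ν' hν
    have h1 := hL0 L hL he (Key n N r) (adr π c ν) (adr π c ν')
      (fun h => hν (adr_injective π c h))
    rwa [Pr_prod] at h1
  have h2 : (Ex fun a : Fin n → Fin L => pairs n L (adr π c) a) =
      ∑ ν : Lab n N r, ∑ ν' : Lab n N r, if ν = ν' then (0 : ℝ) else
        (Ex fun a : Fin n → Fin L => Pr fun y : Bt n L (Key n N r) → Bool =>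
          near a y (adr π c ν) ∧ near a y (adr π c ν')) := by
    unfold pairs
    rw [Ex_sum]
    refine sum_congr rfl fun ν _ => ?_
    rw [Ex_sum]
    refine sum_congr rfl fun ν' _ => ?_
    by_cases hν : ν = ν'
    · simp [hν, Ex]
    · simp [hν]
  rw [h2]
  have hL1 : (0 : ℝ) ≤ ε / (M ^ 2 + 1) / L := by positivity
  calc (∑ ν : Lab n N r, ∑ ν' : Lab n N r, if ν = ν' then (0 : ℝ) else
        (Ex fun a : Fin n → Fin L => Pr fun y : Bt n L (Key n N r) → Bool =>
          near a y (adr π c ν) ∧ near a y (adr π c ν')))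
      ≤ ∑ ν : Lab n N r, ∑ ν' : Lab n N r, ε / (M ^ 2 + 1) / L := by
        refine sum_le_sum fun ν _ => sum_le_sum fun ν' _ => ?_
        split_ifs with hν
        · exact hL1
        · exact key ν ν' hν
    _ = M * (M * (ε / (M ^ 2 + 1) / L)) := by
        simp only [sum_const, card_univ, nsmul_eq_mul, hM]
    _ = (M ^ 2 / (M ^ 2 + 1)) * (ε / L) := by
        field_simp
    _ ≤ 1 * (ε / L) := by
        refine mul_le_mul_of_nonneg_right ?_ (by positivity)
        rw [div_le_one (by positivity)]
        linarith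
    _ = ε / L := one_mul _

end Vale.Agent.P325.H991.K2
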